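import Vale.Agent.P162.MathlibUsed

namespace Vale.Agent.P162

open Equiv

/-- One Thorp shuffle of a deck of `2 * m` cards (positions `0, …, 2 m - 1`) with coins `ω`,
as a permutation of positions (old position of a card maps to its new position):
the cards in positions `i` and `m + i` go to positions `2 i` and `2 i + 1`,
in this order if `ω i = 0` and in the opposite order if `ω i = 1`. -/
def thorpPerm (m : ℕ) (ω : Fin m → Fin 2) : Perm (Fin (2 * m)) :=
  ((finProdFinEquiv (m := 2) (n := m)).symm.trans
    { toFun := fun p => (p.2, p.1 + ω p.2)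
      invFun := fun p => (p.2 + ω p.1, p.1)
      left_inv := by
        rintro ⟨b, i⟩
        have : ∀ b c : Fin 2, b + c + c = b := by decide
        simp [this]
      right_inv := by
        rintro ⟨i, b⟩
        have : ∀ b c : Fin 2, b + c + c = b := by decide
        simp [this] }).trans
  ((finProdFinEquiv (m := m) (n := 2)).trans (finCongr (mul_comm m 2)))

/-- The law of one Thorp shuffle of `2 * m` cards: the coins are independent and fair. -/
noncomputable def thorpLaw (m : ℕ) (g : Perm (Fin (2 * m))) : ℝ :=
  (Fintype.card {ω : Fin m → Fin 2 // thorpPerm m ω = g} : ℝ) / 2 ^ m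

/-- Convolution powers of a function on a finite group. -/
noncomputable def convPow {G : Type*} [Group G] [Fintype G] [DecidableEq G] (q : G → ℝ) :
    ℕ → G → ℝ
  | 0 => fun g => if g = 1 then 1 else 0
  | t + 1 => fun g => ∑ h : G, q h * convPow q t (h⁻¹ * g)

/-- Total variation distance to the uniform law. -/
noncomputable def tvUnif {G : Type*} [Fintype G] (μ : G → ℝ) : ℝ :=
  (1 / 2) * ∑ g : G, |μ g - 1 / (Fintype.card G : ℝ)|

/-- Mixing time of the Thorp shuffle of `2 * m` cards. -/
noncomputable def tmix (m : ℕ) : ℕ :=
  sInf {t : ℕ | tvUnif (convPow (thorpLaw m) t) ≤ 1 / 4}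

/-- Computation rule of `convPow` at `0`. -/
theorem convPow_zero_eq {G : Type*} [Group G] [Fintype G] [DecidableEq G] (q : G → ℝ) (g : G) :
    convPow q 0 g = if g = 1 then 1 else 0 := by
  simp only [convPow]

/-- Computation rule of `convPow` at a successor. -/
theorem convPow_succ_eq {G : Type*} [Group G] [Fintype G] [DecidableEq G] (q : G → ℝ) (t : ℕ)
    (g : G) : convPow q (t + 1) g = ∑ h : G, q h * convPow q t (h⁻¹ * g) := by
  simp only [convPow]

end Vale.Agent.P162
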