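import Mathlib.Algebra.Group.Translate
import Mathlib.Algebra.GroupWithZero.Action.Pointwise.Finset
import Mathlib.Algebra.Order.Archimedean.Real.Hom
import Mathlib.Algebra.Order.Chebyshev
import Mathlib.Algebra.Order.Star.Real
import Mathlib.Algebra.Ring.Action.Pointwise.Finset
import Mathlib.Algebra.Ring.IsFormallyReal
import Mathlib.Algebra.Star.TransferInstance
import Mathlib.Analysis.Complex.ExponentialBounds
import Mathlib.Analysis.InnerProductSpace.Trace
import Mathlib.Analysis.MeanInequalitiesPow
import Mathlib.Analysis.Normed.Algebra.MatrixExponential
import Mathlib.Computability.Reduce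
import Mathlib.Data.Int.CardIntervalMod
import Mathlib.Data.Int.Star
import Mathlib.LinearAlgebra.Matrix.Swap
import Mathlib.NumberTheory.Harmonic.Defs
import Mathlib.Order.CompletePartialOrder
import Mathlib.RingTheory.Binomial
import Mathlib.RingTheory.Etale.Weakly
import Mathlib.RingTheory.Flat.TorsionFree
import Mathlib.RingTheory.SimpleRing.Principal
import Mathlib.RingTheory.TotallySplit
import Mathlib.Tactic

/-! The part of Mathlib that the development of this folder uses. -/
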